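import Mathlib

set_option autoImplicit false

namespace Vale.Agent.Lib.P328.helper24

open Finset

/-- Two-term Cauchy–Schwarz: `x² ≤ A E`, `y² ≤ B F` imply `(x+y)² ≤ (A+B)(E+F)`. -/
theorem cs2 {x y A B E F : ℝ} (hA : 0 ≤ A) (hB : 0 ≤ B) (hE : 0 ≤ E) (hF : 0 ≤ F)
    (hx : x ^ 2 ≤ A * E) (hy : y ^ 2 ≤ B * F) : (x + y) ^ 2 ≤ (A + B) * (E + F) := by
  have h0 : x ^ 2 * y ^ 2 ≤ (A * E) * (B * F) :=
    mul_le_mul hx hy (sq_nonneg y) (mul_nonneg hA hE)
  have h1 : (2 * x * y) ^ 2 ≤ (A * F + B * E) ^ 2 := by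
    nlinarith [sq_nonneg (A * F - B * E)]
  have h2 : 0 ≤ A * F + B * E := by positivity
  have h3 : 2 * x * y ≤ A * F + B * E := (abs_le_of_sq_le_sq' h1 h2).2
  nlinarith

/-- Cauchy–Schwarz along a path of increments. -/
theorem path_bound (R φ0 e : ℕ → ℝ) (d : ℕ)
    (hmono : ∀ k < d, R (k + 1) ≤ R k) (he : ∀ k < d, 0 ≤ e k)
    (hinc : ∀ k < d, (φ0 (k + 1) - φ0 k) ^ 2 ≤ (R k - R (k + 1)) * e k) (k : ℕ) :
    ∀ j, k ≤ j → j ≤ d → (R j ≤ R k ∧ 0 ≤ ∑ τ ∈ Ico k j, e τ ∧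
      (φ0 j - φ0 k) ^ 2 ≤ (R k - R j) * ∑ τ ∈ Ico k j, e τ) := by
  intro j hkj
  induction j, hkj using Nat.le_induction with
  | base => intro _; simp
  | succ j hkj ih =>
    intro hjd
    obtain ⟨h1, h2, h3⟩ := ih (by omega)
    have hj : j < d := by omega
    rw [Finset.sum_Ico_succ_top hkj]
    refine ⟨le_trans (hmono j hj) h1, add_nonneg h2 (he j hj), ?_⟩
    have := cs2 (sub_nonneg.2 h1) (sub_nonneg.2 (hmono j hj)) h2 (he j hj) h3 (hinc j hj)
    calc (φ0 (j + 1) - φ0 k) ^ 2 = ((φ0 j - φ0 k) + (φ0 (j + 1) - φ0 j)) ^ 2 := by ring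
      _ ≤ ((R k - R j) + (R j - R (j + 1))) * (∑ τ ∈ Ico k j, e τ + e j) := this
      _ = (R k - R (j + 1)) * (∑ τ ∈ Ico k j, e τ + e j) := by ring

/-- Sharp form of the window lemma (induction on the right end of the window). -/
theorem window_sharp (w R φ0 φ e : ℕ → ℝ) (σ : ℝ) (hφ0 : φ 0 = φ0 0 + σ)
    (hφ : ∀ k, 0 < k → φ k = φ0 k) (d : ℕ) :
    (∀ k ≤ d, 0 < w k) → (∀ k ≤ d, R k * w k = w (k + 1)) → (∀ k < d, R (k + 1) ≤ R k) →
    (∀ k < d, 0 ≤ e k) → (∀ k < d, (φ0 (k + 1) - φ0 k) ^ 2 ≤ (R k - R (k + 1)) * e k) →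
    (∑ k ∈ range (d + 1), w k) * (∑ k ∈ range (d + 1), w k * φ k ^ 2)
      - (∑ k ∈ range (d + 1), w k * φ k) ^ 2
    ≤ ∑ τ ∈ range d, e τ * (w (τ + 1) * (∑ k ∈ range (d + 1), w k)
          - w (d + 1) * ∑ k ∈ range (τ + 1), w k)
      + σ ^ 2 * (w 1 * (∑ k ∈ range (d + 1), w k) - w 0 * w (d + 1)) := by
  induction d with
  | zero =>
    intro _ _ _ _ _
    simp only [zero_add, Finset.sum_range_one, Finset.range_zero, Finset.sum_empty]
    apply le_of_eq
    ring
  | succ d ih =>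
    intro hw hR hmono he hinc
    have IH := ih (fun k hk => hw k (by omega)) (fun k hk => hR k (by omega))
      (fun k hk => hmono k (by omega)) (fun k hk => he k (by omega))
      (fun k hk => hinc k (by omega))
    have hwD : 0 < w (d + 1) := hw (d + 1) le_rfl
    have hRD : R (d + 1) * w (d + 1) = w (d + 1 + 1) := hR (d + 1) le_rfl
    have hR0 : R 0 * w 0 = w 1 := hR 0 (by omega)
    have hw0 : 0 < w 0 := hw 0 (by omega)
    have hφD : φ (d + 1) = φ0 (d + 1) := hφ _ (by omega)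
    -- termwise bounds for the pairs `(k, d+1)`
    have hterm : ∀ k ∈ range (d + 1), w k * (φ (d + 1) - φ k) ^ 2 ≤
        w k * ((R k - R (d + 1)) * ∑ τ ∈ Ico k (d + 1), e τ)
          + (if k = 0 then w 0 * ((1 + (R 0 - R (d + 1))) * σ ^ 2 + ∑ τ ∈ Ico 0 (d + 1), e τ)
              else 0) := by
      intro k hk
      have hk' : k ≤ d := by
        have := Finset.mem_range.1 hk
        omega
      obtain ⟨h1, h2, h3⟩ :=
        path_bound R φ0 e (d + 1) hmono he hinc k (d + 1) (by omega) le_rfl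
      have hwk : 0 < w k := hw k (by omega)
      by_cases hk0 : k = 0
      · subst hk0
        simp only [if_true]
        have hc := cs2 (x := -σ) (y := φ0 (d + 1) - φ0 0) (A := 1) (B := R 0 - R (d + 1))
          (E := σ ^ 2) (F := ∑ τ ∈ Ico 0 (d + 1), e τ) zero_le_one (sub_nonneg.2 h1)
          (sq_nonneg σ) h2 (by nlinarith [sq_nonneg σ]) h3
        have hrew : φ (d + 1) - φ 0 = -σ + (φ0 (d + 1) - φ0 0) := by rw [hφD, hφ0]; ring
        rw [hrew]
        calc w 0 * (-σ + (φ0 (d + 1) - φ0 0)) ^ 2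
            ≤ w 0 * ((1 + (R 0 - R (d + 1))) * (σ ^ 2 + ∑ τ ∈ Ico 0 (d + 1), e τ)) :=
              mul_le_mul_of_nonneg_left hc hw0.le
          _ = _ := by ring
      · have hkpos : 0 < k := Nat.pos_of_ne_zero hk0
        simp only [hk0, if_false, add_zero]
        rw [hφD, hφ k hkpos]
        exact mul_le_mul_of_nonneg_left h3 hwk.le
    have hB1 : ∑ k ∈ range (d + 1), w k * (φ (d + 1) - φ k) ^ 2 ≤
        ∑ k ∈ range (d + 1), w k * ((R k - R (d + 1)) * ∑ τ ∈ Ico k (d + 1), e τ)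
          + w 0 * ((1 + (R 0 - R (d + 1))) * σ ^ 2 + ∑ τ ∈ Ico 0 (d + 1), e τ) := by
      refine (Finset.sum_le_sum hterm).trans (le_of_eq ?_)
      rw [Finset.sum_add_distrib]
      simp
    have hswap : ∑ k ∈ range (d + 1), w k * ((R k - R (d + 1)) * ∑ τ ∈ Ico k (d + 1), e τ)
        = ∑ τ ∈ range (d + 1), e τ * ∑ k ∈ range (τ + 1), w k * (R k - R (d + 1)) := by
      calc ∑ k ∈ range (d + 1), w k * ((R k - R (d + 1)) * ∑ τ ∈ Ico k (d + 1), e τ)
          = ∑ k ∈ range (d + 1), ∑ τ ∈ Ico k (d + 1), e τ * (w k * (R k - R (d + 1))) := by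
            refine Finset.sum_congr rfl (fun k _ => ?_)
            rw [← mul_assoc, Finset.mul_sum]
            exact Finset.sum_congr rfl (fun τ _ => by ring)
        _ = ∑ τ ∈ range (d + 1), ∑ k ∈ range (τ + 1), e τ * (w k * (R k - R (d + 1))) := by
            apply Finset.sum_comm'
            intro k τ
            simp only [Finset.mem_range, Finset.mem_Ico]
            omega
        _ = ∑ τ ∈ range (d + 1), e τ * ∑ k ∈ range (τ + 1), w k * (R k - R (d + 1)) := by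
            refine Finset.sum_congr rfl (fun τ _ => ?_)
            rw [Finset.mul_sum]
    have hinner : ∀ τ ∈ range (d + 1), ∑ k ∈ range (τ + 1), w k * (R k - R (d + 1))
        = (∑ k ∈ range (τ + 1), w k) + w (τ + 1) - w 0
            - R (d + 1) * ∑ k ∈ range (τ + 1), w k := by
      intro τ hτ
      have hτ' : τ ≤ d := by
        have := Finset.mem_range.1 hτ
        omega
      have h1 : ∑ k ∈ range (τ + 1), w k * (R k - R (d + 1))
          = ∑ k ∈ range (τ + 1), (w (k + 1) - R (d + 1) * w k) := by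
        refine Finset.sum_congr rfl (fun k hk => ?_)
        have hk' : k ≤ τ := by
          have := Finset.mem_range.1 hk
          omega
        have := hR k (by omega)
        rw [← this]; ring
      rw [h1, Finset.sum_sub_distrib, ← Finset.mul_sum]
      have h2 := Finset.sum_range_succ' w (τ + 1)
      have h3 := Finset.sum_range_succ w (τ + 1)
      linarith
    have hB2 : ∑ k ∈ range (d + 1), w k * (φ (d + 1) - φ k) ^ 2 ≤
        ∑ τ ∈ range (d + 1), e τ * ((∑ k ∈ range (τ + 1), w k) + w (τ + 1)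
            - R (d + 1) * ∑ k ∈ range (τ + 1), w k)
          + w 0 * (1 + (R 0 - R (d + 1))) * σ ^ 2 := by
      refine hB1.trans (le_of_eq ?_)
      rw [hswap, ← Finset.range_eq_Ico]
      have hs : ∑ τ ∈ range (d + 1), e τ * ((∑ k ∈ range (τ + 1), w k) + w (τ + 1)
            - R (d + 1) * ∑ k ∈ range (τ + 1), w k)
          = ∑ τ ∈ range (d + 1), e τ * ∑ k ∈ range (τ + 1), w k * (R k - R (d + 1))
            + w 0 * ∑ τ ∈ range (d + 1), e τ := by
        rw [Finset.mul_sum, ← Finset.sum_add_distrib]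
        refine Finset.sum_congr rfl (fun τ hτ => ?_)
        rw [hinner τ hτ]; ring
      rw [hs]; ring
    have hB3 : w (d + 1) * ∑ k ∈ range (d + 1), w k * (φ (d + 1) - φ k) ^ 2 ≤
        ∑ τ ∈ range (d + 1), e τ * (w (d + 1) * (∑ k ∈ range (τ + 1), w k)
            + w (d + 1) * w (τ + 1) - w (d + 1 + 1) * ∑ k ∈ range (τ + 1), w k)
          + σ ^ 2 * (w (d + 1) * w 0 + w (d + 1) * w 1 - w (d + 1 + 1) * w 0) := by
      refine (mul_le_mul_of_nonneg_left hB2 hwD.le).trans (le_of_eq ?_)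
      rw [mul_add, Finset.mul_sum]
      congr 1
      · refine Finset.sum_congr rfl (fun τ _ => ?_)
        rw [← hRD]; ring
      · rw [← hRD, ← hR0]; ring
    have hBeq : ∑ k ∈ range (d + 1), w k * (φ (d + 1) - φ k) ^ 2
        = (∑ k ∈ range (d + 1), w k * φ k ^ 2)
          - 2 * φ (d + 1) * (∑ k ∈ range (d + 1), w k * φ k)
          + φ (d + 1) ^ 2 * ∑ k ∈ range (d + 1), w k := by
      rw [Finset.mul_sum, Finset.mul_sum, ← Finset.sum_sub_distrib, ← Finset.sum_add_distrib]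
      exact Finset.sum_congr rfl (fun k _ => by ring)
    have e1 : ∑ k ∈ range (d + 1 + 1), w k = ∑ k ∈ range (d + 1), w k + w (d + 1) :=
      Finset.sum_range_succ w (d + 1)
    have e2 : ∑ k ∈ range (d + 1 + 1), w k * φ k ^ 2
        = ∑ k ∈ range (d + 1), w k * φ k ^ 2 + w (d + 1) * φ (d + 1) ^ 2 :=
      Finset.sum_range_succ (fun k => w k * φ k ^ 2) (d + 1)
    have e3 : ∑ k ∈ range (d + 1 + 1), w k * φ k
        = ∑ k ∈ range (d + 1), w k * φ k + w (d + 1) * φ (d + 1) :=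
      Finset.sum_range_succ (fun k => w k * φ k) (d + 1)
    have e4 : ∑ τ ∈ range (d + 1), e τ * (w (τ + 1) * (∑ k ∈ range (d + 1), w k + w (d + 1))
          - w (d + 1 + 1) * ∑ k ∈ range (τ + 1), w k)
        = ∑ τ ∈ range d, e τ * (w (τ + 1) * (∑ k ∈ range (d + 1), w k + w (d + 1))
            - w (d + 1 + 1) * ∑ k ∈ range (τ + 1), w k)
          + e d * (w (d + 1) * (∑ k ∈ range (d + 1), w k + w (d + 1))
            - w (d + 1 + 1) * ∑ k ∈ range (d + 1), w k) :=
      Finset.sum_range_succ (fun τ => e τ * (w (τ + 1) * (∑ k ∈ range (d + 1), w k + w (d + 1))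
          - w (d + 1 + 1) * ∑ k ∈ range (τ + 1), w k)) d
    have e5 : ∑ τ ∈ range (d + 1), e τ * (w (d + 1) * (∑ k ∈ range (τ + 1), w k)
            + w (d + 1) * w (τ + 1) - w (d + 1 + 1) * ∑ k ∈ range (τ + 1), w k)
        = ∑ τ ∈ range d, e τ * (w (d + 1) * (∑ k ∈ range (τ + 1), w k)
            + w (d + 1) * w (τ + 1) - w (d + 1 + 1) * ∑ k ∈ range (τ + 1), w k)
          + e d * (w (d + 1) * (∑ k ∈ range (d + 1), w k)
            + w (d + 1) * w (d + 1) - w (d + 1 + 1) * ∑ k ∈ range (d + 1), w k) :=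
      Finset.sum_range_succ (fun τ => e τ * (w (d + 1) * (∑ k ∈ range (τ + 1), w k)
            + w (d + 1) * w (τ + 1) - w (d + 1 + 1) * ∑ k ∈ range (τ + 1), w k)) d
    have hcomb : ∑ τ ∈ range d, e τ * (w (τ + 1) * (∑ k ∈ range (d + 1), w k + w (d + 1))
          - w (d + 1 + 1) * ∑ k ∈ range (τ + 1), w k)
        = ∑ τ ∈ range d, e τ * (w (τ + 1) * (∑ k ∈ range (d + 1), w k)
              - w (d + 1) * ∑ k ∈ range (τ + 1), w k)
          + ∑ τ ∈ range d, e τ * (w (d + 1) * (∑ k ∈ range (τ + 1), w k)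
              + w (d + 1) * w (τ + 1) - w (d + 1 + 1) * ∑ k ∈ range (τ + 1), w k) := by
      rw [← Finset.sum_add_distrib]
      exact Finset.sum_congr rfl (fun τ _ => by ring)
    have hL : (∑ k ∈ range (d + 1), w k + w (d + 1))
          * (∑ k ∈ range (d + 1), w k * φ k ^ 2 + w (d + 1) * φ (d + 1) ^ 2)
          - (∑ k ∈ range (d + 1), w k * φ k + w (d + 1) * φ (d + 1)) ^ 2
        = ((∑ k ∈ range (d + 1), w k) * (∑ k ∈ range (d + 1), w k * φ k ^ 2)
            - (∑ k ∈ range (d + 1), w k * φ k) ^ 2)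
          + w (d + 1) * ∑ k ∈ range (d + 1), w k * (φ (d + 1) - φ k) ^ 2 := by
      rw [hBeq]; ring
    rw [e5] at hB3
    rw [e1, e2, e3, e4, hcomb, hL]
    linarith [IH, hB3]

/-- **Window lemma** (helper74, report 1244).  Window `[0,d]`, weights `w > 0` on the window
with ratios `R k = w (k+1) / w k` nonincreasing, increments of `φ0` controlled by
`(R k - R (k+1)) * e k`, and `φ = φ0 + σ·1[k = 0]`. -/
theorem window (d : ℕ) (w R φ0 e : ℕ → ℝ) (σ : ℝ)
    (hw : ∀ k ≤ d, 0 < w k) (hwd : 0 ≤ w (d + 1))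
    (hR : ∀ k ≤ d, R k * w k = w (k + 1)) (hmono : ∀ k < d, R (k + 1) ≤ R k)
    (he : ∀ k < d, 0 ≤ e k)
    (hinc : ∀ k < d, (φ0 (k + 1) - φ0 k) ^ 2 ≤ (R k - R (k + 1)) * e k) :
    (∑ k ∈ range (d + 1), w k)
        * (∑ k ∈ range (d + 1), w k * (φ0 k + if k = 0 then σ else 0) ^ 2)
      - (∑ k ∈ range (d + 1), w k * (φ0 k + if k = 0 then σ else 0)) ^ 2
    ≤ (∑ k ∈ range (d + 1), w k) * (∑ k ∈ range d, w (k + 1) * e k + σ ^ 2 * w 1) := by
  have hs := window_sharp w R φ0 (fun k => φ0 k + if k = 0 then σ else 0) e σ (by simp)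
    (fun k hk => by simp [Nat.pos_iff_ne_zero.1 hk]) d hw hR hmono he hinc
  refine hs.trans ?_
  have hW : 0 ≤ ∑ k ∈ range (d + 1), w k :=
    Finset.sum_nonneg (fun k hk => (hw k (by have := Finset.mem_range.1 hk; omega)).le)
  have h1 : ∑ τ ∈ range d, e τ * (w (τ + 1) * (∑ k ∈ range (d + 1), w k)
          - w (d + 1) * ∑ k ∈ range (τ + 1), w k)
      ≤ ∑ τ ∈ range d, (∑ k ∈ range (d + 1), w k) * (w (τ + 1) * e τ) := by
    refine Finset.sum_le_sum (fun τ hτ => ?_)
    have hτ' : τ < d := Finset.mem_range.1 hτ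
    have hX : 0 ≤ ∑ k ∈ range (τ + 1), w k :=
      Finset.sum_nonneg (fun k hk => (hw k (by have := Finset.mem_range.1 hk; omega)).le)
    have := mul_nonneg (he τ hτ') (mul_nonneg hwd hX)
    nlinarith
  have h2 : σ ^ 2 * (w 1 * (∑ k ∈ range (d + 1), w k) - w 0 * w (d + 1))
      ≤ (∑ k ∈ range (d + 1), w k) * (σ ^ 2 * w 1) := by
    have := mul_nonneg (sq_nonneg σ) (mul_nonneg (hw 0 (Nat.zero_le d)).le hwd)
    nlinarith
  have h3 : (∑ k ∈ range (d + 1), w k) * (∑ k ∈ range d, w (k + 1) * e k + σ ^ 2 * w 1)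
      = ∑ τ ∈ range d, (∑ k ∈ range (d + 1), w k) * (w (τ + 1) * e τ)
        + (∑ k ∈ range (d + 1), w k) * (σ ^ 2 * w 1) := by
    rw [mul_add, Finset.mul_sum]
  rw [h3]
  linarith

/-- Window lemma, division-free hypotheses (log-concavity of `w` instead of the ratios `R`). -/
theorem window_lemma (m : ℕ) (w φ0 e : ℕ → ℝ) (σ : ℝ)
    (hw : ∀ i ≤ m, 0 < w i) (hw1 : 0 ≤ w (m + 1)) (he : ∀ i < m, 0 ≤ e i)
    (hlc : ∀ i < m, w i * w (i + 2) ≤ w (i + 1) ^ 2)
    (hinc : ∀ i < m, (φ0 (i + 1) - φ0 i) ^ 2 * (w i * w (i + 1))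
      ≤ (w (i + 1) ^ 2 - w i * w (i + 2)) * e i) :
    (∑ i ∈ range (m + 1), w i)
        * (∑ i ∈ range (m + 1), w i * (φ0 i + if i = 0 then σ else 0) ^ 2)
      - (∑ i ∈ range (m + 1), w i * (φ0 i + if i = 0 then σ else 0)) ^ 2
    ≤ (∑ i ∈ range (m + 1), w i) * (∑ i ∈ range m, w (i + 1) * e i + σ ^ 2 * w 1) := by
  refine window m w (fun k => w (k + 1) / w k) φ0 e σ hw hw1 ?_ ?_ he ?_
  · intro k hk
    exact div_mul_cancel₀ _ (hw k hk).ne'
  · intro k hk
    have h0 : 0 < w k := hw k (by omega)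
    have h1 : 0 < w (k + 1) := hw (k + 1) (by omega)
    show w (k + 1 + 1) / w (k + 1) ≤ w (k + 1) / w k
    rw [div_le_div_iff₀ h1 h0]
    have := hlc k hk
    nlinarith
  · intro k hk
    have h0 : 0 < w k := hw k (by omega)
    have h1 : 0 < w (k + 1) := hw (k + 1) (by omega)
    have h01 : 0 < w k * w (k + 1) := mul_pos h0 h1
    have hR : w (k + 1) / w k - w (k + 1 + 1) / w (k + 1)
        = (w (k + 1) ^ 2 - w k * w (k + 2)) / (w k * w (k + 1)) := by
      field_simp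
    show (φ0 (k + 1) - φ0 k) ^ 2 ≤ (w (k + 1) / w k - w (k + 1 + 1) / w (k + 1)) * e k
    rw [hR, div_mul_eq_mul_div, le_div_iff₀ h01]
    exact hinc k hk

/-- Window lemma in the form in which it is applied (`ξ`, `P`; helper88's signature W2):
`φ0 = ξ / w`, `e i = P i / w (i+1)`. -/
theorem window_xi (m : ℕ) (w ξ P : ℕ → ℝ) (σ : ℝ)
    (hw : ∀ i ≤ m, 0 < w i) (hw1 : 0 ≤ w (m + 1)) (hP : ∀ i ≤ m, 0 ≤ P i)
    (hlc : ∀ i < m, w i * w (i + 2) ≤ w (i + 1) ^ 2)
    (hinc : ∀ i < m, (w i * ξ (i + 1) - w (i + 1) * ξ i) ^ 2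
      ≤ (w (i + 1) ^ 2 - w i * w (i + 2)) * (w i * P i)) :
    (∑ i ∈ range (m + 1), w i)
        * (∑ i ∈ range (m + 1), (ξ i ^ 2 / w i - P i) + 2 * σ * ξ 0 + σ ^ 2 * (w 0 - w 1))
      ≤ (∑ i ∈ range (m + 1), ξ i + σ * w 0) ^ 2 := by
  have hW : 0 ≤ ∑ i ∈ range (m + 1), w i :=
    Finset.sum_nonneg (fun k hk => (hw k (by have := Finset.mem_range.1 hk; omega)).le)
  have key := window_lemma m w (fun i => ξ i / w i) (fun i => P i / w (i + 1)) σ hw hw1
    (fun i hi => div_nonneg (hP i (by omega)) (hw (i + 1) (by omega)).le) hlc ?_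
  · -- rewrite the three sums of `key`
    have s1 : ∑ i ∈ range (m + 1), w i * (ξ i / w i + if i = 0 then σ else 0) ^ 2
        = ∑ i ∈ range (m + 1), ξ i ^ 2 / w i + 2 * σ * ξ 0 + σ ^ 2 * w 0 := by
      have : ∀ i ∈ range (m + 1), w i * (ξ i / w i + if i = 0 then σ else 0) ^ 2
          = ξ i ^ 2 / w i + (if i = 0 then 2 * σ * ξ 0 + σ ^ 2 * w 0 else 0) := by
        intro i hi
        have hwi : w i ≠ 0 := (hw i (by have := Finset.mem_range.1 hi; omega)).ne'
        by_cases h0 : i = 0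
        · subst h0
          simp only [if_true]
          field_simp
          ring
        · simp only [h0, if_false, add_zero]
          field_simp
      rw [Finset.sum_congr rfl this, Finset.sum_add_distrib]
      simp
      ring
    have s2 : ∑ i ∈ range (m + 1), w i * (ξ i / w i + if i = 0 then σ else 0)
        = ∑ i ∈ range (m + 1), ξ i + σ * w 0 := by
      have : ∀ i ∈ range (m + 1), w i * (ξ i / w i + if i = 0 then σ else 0)
          = ξ i + (if i = 0 then σ * w 0 else 0) := by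
        intro i hi
        have hwi : w i ≠ 0 := (hw i (by have := Finset.mem_range.1 hi; omega)).ne'
        by_cases h0 : i = 0
        · subst h0
          simp only [if_true]
          field_simp
        · simp only [h0, if_false, add_zero]
          field_simp
      rw [Finset.sum_congr rfl this, Finset.sum_add_distrib]
      simp
    have s3 : ∑ i ∈ range m, w (i + 1) * (P i / w (i + 1)) = ∑ i ∈ range m, P i := by
      refine Finset.sum_congr rfl (fun i hi => ?_)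
      have hwi : w (i + 1) ≠ 0 := (hw (i + 1) (by have := Finset.mem_range.1 hi; omega)).ne'
      field_simp
    rw [s1, s2, s3] at key
    have s4 : ∑ i ∈ range (m + 1), (ξ i ^ 2 / w i - P i)
        = ∑ i ∈ range (m + 1), ξ i ^ 2 / w i - (∑ i ∈ range m, P i + P m) := by
      rw [Finset.sum_sub_distrib, Finset.sum_range_succ P m]
    rw [s4]
    have hPm := mul_nonneg hW (hP m le_rfl)
    nlinarith
  · intro i hi
    have h0 : 0 < w i := hw i (by omega)
    have h1 : 0 < w (i + 1) := hw (i + 1) (by omega)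
    have hd : ξ (i + 1) / w (i + 1) - ξ i / w i
        = (w i * ξ (i + 1) - w (i + 1) * ξ i) / (w i * w (i + 1)) := by
      field_simp
    have hα : 0 ≤ w (i + 1) ^ 2 - w i * w (i + 2) := by linarith [hlc i hi]
    show (ξ (i + 1) / w (i + 1) - ξ i / w i) ^ 2 * (w i * w (i + 1))
      ≤ (w (i + 1) ^ 2 - w i * w (i + 2)) * (P i / w (i + 1))
    rw [hd, div_pow, div_mul_eq_mul_div, div_le_iff₀ (by positivity)]
    have := hinc i hi
    have e1 : (w (i + 1) ^ 2 - w i * w (i + 2)) * (P i / w (i + 1)) * (w i * w (i + 1)) ^ 2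
        = ((w (i + 1) ^ 2 - w i * w (i + 2)) * (w i * P i)) * (w i * w (i + 1)) := by
      field_simp
    rw [e1]
    exact mul_le_mul_of_nonneg_right this (mul_pos h0 h1).le

end Vale.Agent.Lib.P328.helper24
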