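import Vale.Agent.Lib.P328.helper74.ChainDefs
import Vale.Agent.Lib.P328.helper24.Window

/-!
P328: the column step `Lor_step` for helper74's chain definitions (independent copy).
-/

set_option autoImplicit false

namespace Vale.Agent.Lib.P328.helper24

open Finset
open Vale.Agent.Lib.P328.helper74

/-- A nonnegative binary quadratic form has nonpositive discriminant. -/
theorem disc_le {α β γ : ℝ} (h : ∀ y z : ℝ, 0 ≤ α * y ^ 2 - 2 * β * y * z + γ * z ^ 2) :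
    β ^ 2 ≤ α * γ := by
  have hα : 0 ≤ α := by
    have := h 1 0
    simpa using this
  rcases hα.lt_or_eq with hpos | hzero
  · have h1 := h β α
    by_contra hcon
    push Not at hcon
    have h2 : α * (α * γ - β ^ 2) < 0 := mul_neg_of_pos_of_neg hpos (by linarith)
    nlinarith
  · subst hzero
    by_contra hcon
    push Not at hcon
    have hβ : β ≠ 0 := by
      rintro rfl
      simp at hcon
    have h1 := h ((γ + 1) / (2 * β)) 1
    have e : 2 * β * ((γ + 1) / (2 * β)) = γ + 1 := by field_simp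
    nlinarith

theorem main_alg (α β γ y z : ℝ) (h : β ^ 2 ≤ α * γ) :
    (-α * y + β * z) ^ 2 ≤ α * (α * y ^ 2 - 2 * β * y * z + γ * z ^ 2) := by
  nlinarith [mul_nonneg (sub_nonneg.2 h) (sq_nonneg z)]

/-- `ξ_ρ(y,z) = w_{ρ+1} y + l_ρ z` (the linear form at `x = 0`). -/
def xi (w l : ℤ → ℝ) (y z : ℝ) (ρ : ℤ) : ℝ := w (ρ + 1) * y + l ρ * z

/-- `T_ρ(0,y,z) = w_{ρ+2} y² + 2 l_{ρ+1} y z + q_ρ z²`. -/
def Tq (w l q : ℤ → ℝ) (y z : ℝ) (ρ : ℤ) : ℝ :=
  w (ρ + 2) * y ^ 2 + 2 * l (ρ + 1) * y * z + q ρ * z ^ 2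

theorem Lor_nonneg {m : ℕ} {w l q : ℤ → ℝ} (h : Lor m w l q) (ρ : ℤ) : 0 ≤ w ρ := by
  obtain ⟨hpos, hw0, -, -, -⟩ := h
  by_cases hin : 0 ≤ ρ ∧ ρ ≤ (m : ℤ)
  · exact (hpos ρ hin.1 hin.2).le
  · have : ρ < 0 ∨ (m : ℤ) < ρ := by
      by_contra hcon
      push Not at hcon
      exact hin ⟨hcon.1, hcon.2⟩
    rw [hw0 ρ this]

/-- The window inequality on a window `[a0, a0 + N]` inside the support. -/
theorem interior {m : ℕ} {w l q : ℤ → ℝ} (h : Lor m w l q) (y z σ : ℝ) (a0 : ℤ) (N : ℕ)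
    (ha0 : 0 ≤ a0) (haN : a0 + N ≤ m) :
    (∑ i ∈ range (N + 1), w (a0 + i))
        * (∑ i ∈ range (N + 1), Tq w l q y z (a0 + i) + 2 * σ * xi w l y z a0
            + σ ^ 2 * (w a0 - w (a0 + 1)))
      ≤ (∑ i ∈ range (N + 1), xi w l y z (a0 + i) + σ * w a0) ^ 2 := by
  have hwnn := Lor_nonneg h
  obtain ⟨hpos, hw0, hl0, hq0, hmain⟩ := h
  have hin : ∀ i : ℕ, i ≤ N → 0 ≤ a0 + (i : ℤ) ∧ a0 + (i : ℤ) ≤ m := by
    intro i hi
    have : (i : ℤ) ≤ N := by exact_mod_cast hi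
    constructor <;> omega
  have key := window_xi N (fun i : ℕ => w (a0 + i)) (fun i : ℕ => xi w l y z (a0 + i))
    (fun i : ℕ => xi w l y z (a0 + i) ^ 2 / w (a0 + i) - Tq w l q y z (a0 + i)) σ
    (fun i hi => hpos _ (hin i hi).1 (hin i hi).2) (hwnn _) ?_ ?_ ?_
  · simp only [Nat.cast_zero, add_zero, Nat.cast_one, sub_sub_cancel] at key
    exact key
  · -- hP
    intro i hi
    obtain ⟨h1, h2⟩ := hin i hi
    have hwp := hpos _ h1 h2
    have hf := hmain _ h1 h2 y z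
    have e : xi w l y z (a0 + i) ^ 2 / w (a0 + i) - Tq w l q y z (a0 + i)
        = ((w (a0 + i + 1) ^ 2 - w (a0 + i) * w (a0 + i + 2)) * y ^ 2
            - 2 * (w (a0 + i) * l (a0 + i + 1) - w (a0 + i + 1) * l (a0 + i)) * y * z
            + (l (a0 + i) ^ 2 - w (a0 + i) * q (a0 + i)) * z ^ 2) / w (a0 + i) := by
      unfold xi Tq
      field_simp
      ring
    show 0 ≤ xi w l y z (a0 + i) ^ 2 / w (a0 + i) - Tq w l q y z (a0 + i)
    rw [e]
    exact div_nonneg hf hwp.le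
  · -- hlc
    intro i hi
    obtain ⟨h1, h2⟩ := hin i (by omega)
    have hf := hmain _ h1 h2 1 0
    have e1 : a0 + ((i + 1 : ℕ) : ℤ) = a0 + i + 1 := by push_cast; ring
    have e2 : a0 + ((i + 2 : ℕ) : ℤ) = a0 + i + 2 := by push_cast; ring
    show w (a0 + (i : ℤ)) * w (a0 + ((i + 2 : ℕ) : ℤ)) ≤ w (a0 + ((i + 1 : ℕ) : ℤ)) ^ 2
    rw [e1, e2]
    linarith
  · -- hinc
    intro i hi
    obtain ⟨h1, h2⟩ := hin i (by omega)
    have hwp := hpos _ h1 h2
    have hf := hmain _ h1 h2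
    have e1 : a0 + ((i + 1 : ℕ) : ℤ) = a0 + i + 1 := by push_cast; ring
    have e2 : a0 + ((i + 2 : ℕ) : ℤ) = a0 + i + 2 := by push_cast; ring
    show (w (a0 + (i : ℤ)) * xi w l y z (a0 + ((i + 1 : ℕ) : ℤ))
        - w (a0 + ((i + 1 : ℕ) : ℤ)) * xi w l y z (a0 + (i : ℤ))) ^ 2
      ≤ (w (a0 + ((i + 1 : ℕ) : ℤ)) ^ 2 - w (a0 + (i : ℤ)) * w (a0 + ((i + 2 : ℕ) : ℤ)))
        * (w (a0 + (i : ℤ)) * (xi w l y z (a0 + (i : ℤ)) ^ 2 / w (a0 + (i : ℤ))
            - Tq w l q y z (a0 + (i : ℤ))))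
    rw [e1, e2]
    generalize a0 + (i : ℤ) = ρ at hwp hf ⊢
    have e3 : ρ + 1 + 1 = ρ + 2 := by ring
    have hd := disc_le (α := w (ρ + 1) ^ 2 - w ρ * w (ρ + 2))
      (β := w ρ * l (ρ + 1) - w (ρ + 1) * l ρ) (γ := l ρ ^ 2 - w ρ * q ρ) (fun y z => hf y z)
    have eL : w ρ * xi w l y z (ρ + 1) - w (ρ + 1) * xi w l y z ρ
        = -(w (ρ + 1) ^ 2 - w ρ * w (ρ + 2)) * y + (w ρ * l (ρ + 1) - w (ρ + 1) * l ρ) * z := by
      unfold xi
      rw [e3]
      ring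
    have eR : w ρ * (xi w l y z ρ ^ 2 / w ρ - Tq w l q y z ρ)
        = (w (ρ + 1) ^ 2 - w ρ * w (ρ + 2)) * y ^ 2
            - 2 * (w ρ * l (ρ + 1) - w (ρ + 1) * l ρ) * y * z
            + (l ρ ^ 2 - w ρ * q ρ) * z ^ 2 := by
      unfold xi Tq
      field_simp
      ring
    rw [eL, eR]
    exact main_alg _ _ _ y z hd

theorem sum_reflect_int (f : ℤ → ℝ) (r : ℤ) (C : ℕ) :
    ∑ k ∈ range (C + 1), f (r - (k : ℤ)) = ∑ i ∈ range (C + 1), f (r - (C : ℤ) + (i : ℤ)) := by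
  rw [← Finset.sum_range_reflect (fun i : ℕ => f (r - (C : ℤ) + (i : ℤ))) (C + 1)]
  refine Finset.sum_congr rfl (fun j hj => ?_)
  have hj' := Finset.mem_range.1 hj
  congr 1
  omega

theorem sum_trunc (g : ℕ → ℝ) (N C : ℕ) (hN : N ≤ C) (h0 : ∀ i, N < i → i ≤ C → g i = 0) :
    ∑ i ∈ range (C + 1), g i = ∑ i ∈ range (N + 1), g i := by
  symm
  apply Finset.sum_subset
  · intro i hi
    simp only [Finset.mem_range] at hi ⊢
    omega
  · intro i hi hni
    simp only [Finset.mem_range] at hi hni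
    exact h0 i (by omega) (by omega)

theorem xi_zero_above {m : ℕ} {w l q : ℤ → ℝ} (h : Lor m w l q) (y z : ℝ) (ρ : ℤ)
    (hρ : (m : ℤ) < ρ) : xi w l y z ρ = 0 := by
  obtain ⟨-, hw0, hl0, -, -⟩ := h
  unfold xi
  rw [hw0 (ρ + 1) (Or.inr (by omega)), hl0 ρ (Or.inr hρ)]
  ring

theorem Tq_zero_above {m : ℕ} {w l q : ℤ → ℝ} (h : Lor m w l q) (y z : ℝ) (ρ : ℤ)
    (hρ : (m : ℤ) < ρ) : Tq w l q y z ρ = 0 := by
  obtain ⟨-, hw0, hl0, hq0, -⟩ := h
  unfold Tq
  rw [hw0 (ρ + 2) (Or.inr (by omega)), hl0 (ρ + 1) (Or.inr (by omega)), hq0 ρ (Or.inr hρ)]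
  ring

/-- Case A of the column step: the window `[R - C, R]` starts at a nonnegative level. -/
theorem step_caseA {m : ℕ} {w l q : ℤ → ℝ} (h : Lor m w l q) (C R : ℕ) (y z σ : ℝ)
    (hCR : C ≤ R) (hR : R ≤ m + C) :
    (∑ k ∈ range (C + 1), w ((R : ℤ) - k))
      * (∑ k ∈ range (C + 1), Tq w l q y z ((R : ℤ) - k) + 2 * σ * xi w l y z ((R : ℤ) - C)
          + σ ^ 2 * (w ((R : ℤ) - C) - if 1 ≤ C then w ((R : ℤ) - C + 1) else 0))
    ≤ (∑ k ∈ range (C + 1), xi w l y z ((R : ℤ) - k) + σ * w ((R : ℤ) - C)) ^ 2 := by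
  obtain ⟨N, hN⟩ : ∃ N, N = min C (m - (R - C)) := ⟨_, rfl⟩
  have hNC : N ≤ C := by omega
  have hNm : (R : ℤ) - C + N ≤ m := by omega
  have hNout : ∀ i : ℕ, N < i → i ≤ C → (m : ℤ) < (R : ℤ) - C + i := by
    intro i hi hiC
    omega
  have hsumf : ∀ f : ℤ → ℝ, (∀ ρ : ℤ, (m : ℤ) < ρ → f ρ = 0) →
      ∑ k ∈ range (C + 1), f ((R : ℤ) - k) = ∑ i ∈ range (N + 1), f ((R : ℤ) - C + i) := by
    intro f hf
    rw [sum_reflect_int]
    exact sum_trunc (fun i : ℕ => f ((R : ℤ) - C + i)) N C hNC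
      (fun i hi hiC => hf _ (hNout i hi hiC))
  rw [hsumf w (fun ρ hρ => h.2.1 ρ (Or.inr hρ)), hsumf _ (xi_zero_above h y z),
    hsumf _ (Tq_zero_above h y z)]
  by_cases hC : 1 ≤ C
  · rw [if_pos hC]
    exact interior h y z σ ((R : ℤ) - C) N (by omega) hNm
  · have hC0 : C = 0 := by omega
    subst hC0
    have hN0 : N = 0 := by omega
    subst hN0
    rw [if_neg hC]
    simp only [zero_add, Finset.sum_range_one, Nat.cast_zero, sub_zero, add_zero]
    obtain ⟨hpos, -, -, -, hmain⟩ := h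
    have hf := hmain (R : ℤ) (by omega) (by omega) y z
    have e : w (R : ℤ) * Tq w l q y z (R : ℤ) = xi w l y z (R : ℤ) ^ 2
        - ((w ((R : ℤ) + 1) ^ 2 - w (R : ℤ) * w ((R : ℤ) + 2)) * y ^ 2
            - 2 * (w (R : ℤ) * l ((R : ℤ) + 1) - w ((R : ℤ) + 1) * l (R : ℤ)) * y * z
            + (l (R : ℤ) ^ 2 - w (R : ℤ) * q (R : ℤ)) * z ^ 2) := by
      unfold xi Tq
      ring
    have e2 : (xi w l y z (R : ℤ) + σ * w (R : ℤ)) ^ 2
        - w (R : ℤ) * (Tq w l q y z (R : ℤ) + 2 * σ * xi w l y z (R : ℤ) + σ ^ 2 * w (R : ℤ))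
        = xi w l y z (R : ℤ) ^ 2 - w (R : ℤ) * Tq w l q y z (R : ℤ) := by ring
    linarith

/-- Case B of the column step: the window `[R - C, R]` starts below level `0`. -/
theorem step_caseB {m : ℕ} {w l q : ℤ → ℝ} (h : Lor m w l q) (C R : ℕ) (y z σ : ℝ)
    (hRC : R < C) :
    (∑ k ∈ range (C + 1), w ((R : ℤ) - k))
      * (∑ k ∈ range (C + 1), Tq w l q y z ((R : ℤ) - k) + 2 * σ * xi w l y z ((R : ℤ) - C)
          + σ ^ 2 * (w ((R : ℤ) - C) - if 1 ≤ C then w ((R : ℤ) - C + 1) else 0))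
    ≤ (∑ k ∈ range (C + 1), xi w l y z ((R : ℤ) - k) + σ * w ((R : ℤ) - C)) ^ 2 := by
  have hwnn := Lor_nonneg h
  have hh := h
  obtain ⟨hpos, hw0, hl0, hq0, hmain⟩ := h
  obtain ⟨N, hN⟩ : ∃ N, N = min R m := ⟨_, rfl⟩
  have hNR : N ≤ R := by omega
  have hNm : (0 : ℤ) + N ≤ m := by omega
  -- splitting the window at level 0
  have hsplit : ∀ f : ℤ → ℝ, ∑ k ∈ range (C + 1), f ((R : ℤ) - k)
      = ∑ i ∈ range (R + 1), f (i : ℤ) + ∑ x ∈ range (C - R), f (-1 - (x : ℤ)) := by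
    intro f
    have hC : C + 1 = (R + 1) + (C - R) := by omega
    rw [hC, Finset.sum_range_add]
    congr 1
    · rw [← Finset.sum_range_reflect (fun i : ℕ => f (i : ℤ)) (R + 1)]
      refine Finset.sum_congr rfl (fun j hj => ?_)
      have := Finset.mem_range.1 hj
      congr 1
      omega
    · refine Finset.sum_congr rfl (fun x _ => ?_)
      congr 1
      push_cast
      ring
  have htop : ∀ f : ℤ → ℝ, (∀ ρ : ℤ, (m : ℤ) < ρ → f ρ = 0) →
      ∑ i ∈ range (R + 1), f (i : ℤ) = ∑ i ∈ range (N + 1), f ((0 : ℤ) + i) := by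
    intro f hf
    rw [sum_trunc (fun i : ℕ => f (i : ℤ)) N R hNR (fun i hi hiR => hf _ (by omega))]
    refine Finset.sum_congr rfl (fun i _ => ?_)
    rw [zero_add]
  -- the three window sums
  have hW : ∑ k ∈ range (C + 1), w ((R : ℤ) - k) = ∑ i ∈ range (N + 1), w ((0 : ℤ) + i) := by
    rw [hsplit w, htop w (fun ρ hρ => hw0 ρ (Or.inr hρ))]
    have : ∑ x ∈ range (C - R), w (-1 - (x : ℤ)) = 0 :=
      Finset.sum_eq_zero (fun x _ => hw0 _ (Or.inl (by omega)))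
    rw [this, add_zero]
  have hxm1 : xi w l y z (-1) = w 0 * y := by
    unfold xi
    rw [hl0 (-1) (Or.inl (by omega))]
    norm_num
  have hX : ∑ k ∈ range (C + 1), xi w l y z ((R : ℤ) - k)
      = ∑ i ∈ range (N + 1), xi w l y z ((0 : ℤ) + i) + w 0 * y := by
    rw [hsplit _, htop _ (xi_zero_above hh y z)]
    have : ∑ x ∈ range (C - R), xi w l y z (-1 - (x : ℤ)) = xi w l y z (-1) := by
      rw [Finset.sum_eq_single 0]
      · norm_num
      · intro b _ hb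
        have hb' : 0 < b := Nat.pos_of_ne_zero hb
        unfold xi
        rw [hw0 _ (Or.inl (by omega)), hl0 _ (Or.inl (by omega))]
        ring
      · intro hnot
        exact absurd (Finset.mem_range.2 (by omega)) hnot
    rw [this, hxm1]
  have hTm1 : Tq w l q y z (-1) = w 1 * y ^ 2 + 2 * l 0 * y * z := by
    unfold Tq
    rw [hq0 (-1) (Or.inl (by omega))]
    norm_num
  have hTm2 : Tq w l q y z (-2) = w 0 * y ^ 2 := by
    unfold Tq
    rw [hq0 (-2) (Or.inl (by omega))]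
    have : l (-2 + 1) = 0 := hl0 _ (Or.inl (by omega))
    rw [this]
    norm_num
  have hwa : w ((R : ℤ) - C) = 0 := hw0 _ (Or.inl (by omega))
  have hla : l ((R : ℤ) - C) = 0 := hl0 _ (Or.inl (by omega))
  have hI := interior hh y z y 0 N le_rfl hNm
  have hx0 : xi w l y z 0 = w 1 * y + l 0 * z := by
    unfold xi
    norm_num
  have h01 : w ((0 : ℤ) + 1) = w 1 := by norm_num
  rw [hx0, h01] at hI
  have hSW : 0 ≤ ∑ i ∈ range (N + 1), w ((0 : ℤ) + i) :=
    Finset.sum_nonneg (fun i _ => hwnn _)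
  have hw0nn : 0 ≤ w 0 := hwnn 0
  rw [hW, hX, hwa, if_pos (by omega : 1 ≤ C)]
  have hxa : xi w l y z ((R : ℤ) - C) = w ((R : ℤ) - C + 1) * y := by
    unfold xi
    rw [hla]
    ring
  rw [hxa, hsplit _, htop _ (Tq_zero_above hh y z)]
  by_cases hcase : R + 2 ≤ C
  · -- the window starts at level ≤ -2
    have hwa1 : w ((R : ℤ) - C + 1) = 0 := hw0 _ (Or.inl (by omega))
    have hneg : ∑ x ∈ range (C - R), Tq w l q y z (-1 - (x : ℤ))
        = Tq w l q y z (-1) + Tq w l q y z (-2) := by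
      have h2 : ∑ x ∈ range (C - R), Tq w l q y z (-1 - (x : ℤ))
          = ∑ x ∈ range 2, Tq w l q y z (-1 - (x : ℤ)) := by
        symm
        apply Finset.sum_subset
        · intro i hi
          simp only [Finset.mem_range] at hi ⊢
          omega
        · intro i hi hni
          simp only [Finset.mem_range] at hi hni
          unfold Tq
          rw [hw0 _ (Or.inl (by omega)), hl0 _ (Or.inl (by omega)), hq0 _ (Or.inl (by omega))]
          ring
      rw [h2, Finset.sum_range_succ, Finset.sum_range_one]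
      norm_num
    rw [hneg, hTm1, hTm2, hwa1]
    nlinarith [hI]
  · -- the window starts at level -1
    have hCR1 : C = R + 1 := by omega
    have hwa1 : w ((R : ℤ) - C + 1) = w 0 := by
      congr 1
      omega
    have hneg : ∑ x ∈ range (C - R), Tq w l q y z (-1 - (x : ℤ)) = Tq w l q y z (-1) := by
      have : C - R = 1 := by omega
      rw [this, Finset.sum_range_one]
      norm_num
    rw [hneg, hTm1, hwa1]
    have hsq := mul_nonneg hSW (mul_nonneg hw0nn (sq_nonneg (y - σ)))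
    nlinarith [hI, hsq]

/-- The column step: `Lor` is preserved when a column of capacity `C` and weight `t` is
added (independent proof of helper74's `Lor_step`). -/
theorem Lor_step {m : ℕ} {w l q : ℤ → ℝ} (C : ℕ) (t : ℝ) (h : Lor m w l q) :
    Lor (m + C) (addW C w) (addL C t w l) (addQ C t w l q) := by
  have hwnn := Lor_nonneg h
  have hh := h
  obtain ⟨hpos, hw0, hl0, hq0, hmain⟩ := h
  have hout : ∀ ρ : ℤ, (ρ < 0 ∨ ((m + C : ℕ) : ℤ) < ρ) → ∀ k ∈ range (C + 1),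
      (ρ - (k : ℤ) < 0 ∨ (m : ℤ) < ρ - (k : ℤ)) := by
    intro ρ hρ k hk
    have hk' := Finset.mem_range.1 hk
    push_cast at hρ
    omega
  have hWpos : ∀ ρ : ℤ, 0 ≤ ρ → ρ ≤ ((m + C : ℕ) : ℤ) → 0 < addW C w ρ := by
    intro ρ h0 hm
    unfold addW
    apply Finset.sum_pos'
    · intro k _
      exact hwnn _
    · push_cast at hm
      refine ⟨(ρ - m).toNat, Finset.mem_range.2 (by omega), hpos _ (by omega) (by omega)⟩
  have hW0 : ∀ ρ : ℤ, (ρ < 0 ∨ ((m + C : ℕ) : ℤ) < ρ) → addW C w ρ = 0 := by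
    intro ρ hρ
    unfold addW
    exact Finset.sum_eq_zero (fun k hk => hw0 _ (hout ρ hρ k hk))
  refine ⟨hWpos, hW0, ?_, ?_, ?_⟩
  · intro ρ hρ
    unfold addL
    rw [Finset.sum_eq_zero (fun k hk => hl0 _ (hout ρ hρ k hk)),
      hw0 _ (hout ρ hρ C (Finset.mem_range.2 (by omega)))]
    ring
  · intro ρ hρ
    unfold addQ
    have h1 : (if 1 ≤ C then w (ρ - (C : ℤ) + 1) else 0) = 0 := by
      split_ifs with hC
      · apply hw0
        push_cast at hρ
        omega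
      · rfl
    rw [Finset.sum_eq_zero (fun k hk => hq0 _ (hout ρ hρ k hk)),
      hl0 _ (hout ρ hρ C (Finset.mem_range.2 (by omega))),
      hw0 _ (hout ρ hρ C (Finset.mem_range.2 (by omega))), h1]
    ring
  · intro ρ h0 hm y z
    lift ρ to ℕ using h0 with R
    have hR : R ≤ m + C := by exact_mod_cast hm
    have key : (∑ k ∈ range (C + 1), w ((R : ℤ) - k))
        * (∑ k ∈ range (C + 1), Tq w l q y z ((R : ℤ) - k)
            + 2 * (t * z) * xi w l y z ((R : ℤ) - C)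
            + (t * z) ^ 2 * (w ((R : ℤ) - C) - if 1 ≤ C then w ((R : ℤ) - C + 1) else 0))
        ≤ (∑ k ∈ range (C + 1), xi w l y z ((R : ℤ) - k) + (t * z) * w ((R : ℤ) - C)) ^ 2 := by
      by_cases hCR : C ≤ R
      · exact step_caseA hh C R y z (t * z) hCR hR
      · exact step_caseB hh C R y z (t * z) (by omega)
    have e1 : ∀ k : ℕ, (R : ℤ) + 1 - (k : ℤ) = (R : ℤ) - k + 1 := fun k => by ring
    have e2 : ∀ k : ℕ, (R : ℤ) + 2 - (k : ℤ) = (R : ℤ) - k + 2 := fun k => by ring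
    have I1 : addW C w ((R : ℤ) + 1) * y + addL C t w l (R : ℤ) * z
        = ∑ k ∈ range (C + 1), xi w l y z ((R : ℤ) - k) + (t * z) * w ((R : ℤ) - C) := by
      unfold addW addL xi
      rw [Finset.sum_add_distrib, Finset.sum_mul, add_mul, Finset.sum_mul]
      simp only [e1]
      ring
    have I2 : addW C w ((R : ℤ) + 2) * y ^ 2 + 2 * addL C t w l ((R : ℤ) + 1) * y * z
          + addQ C t w l q (R : ℤ) * z ^ 2
        = ∑ k ∈ range (C + 1), Tq w l q y z ((R : ℤ) - k)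
            + 2 * (t * z) * xi w l y z ((R : ℤ) - C)
            + (t * z) ^ 2 * (w ((R : ℤ) - C) - if 1 ≤ C then w ((R : ℤ) - C + 1) else 0) := by
      unfold addW addL addQ Tq xi
      simp only [Finset.sum_add_distrib, ← Finset.sum_mul, ← Finset.mul_sum, e1, e2]
      ring
    have I0 : addW C w (R : ℤ) = ∑ k ∈ range (C + 1), w ((R : ℤ) - k) := rfl
    rw [← I0, ← I1, ← I2] at key
    nlinarith [key]

end Vale.Agent.Lib.P328.helper24
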